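import Mathlib

/-!
Prime-free squares near every point in every direction, for Gaussian integers.
-/

namespace Vale.Agent.P015

open Finset

/-- A Gaussian prime whose norm is divisible by a prime `p` has norm at most `p ^ 2`. -/
lemma norm_le_sq_of_dvd {z : GaussianInt} (hz : Prime z) {p : ℕ} (hp : p.Prime)
    (h : (p : ℤ) ∣ z.norm) : z.norm ≤ (p : ℤ) ^ 2 := by
  have key : ∀ n : ℕ, n ≠ 0 → z ∣ (n : GaussianInt) →
      ∃ q : ℕ, q.Prime ∧ z ∣ (q : GaussianInt) := by
    intro n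
    induction n using Nat.recOnMul with
    | zero => intro hn; exact absurd rfl hn
    | one =>
      intro _ hd
      rw [Nat.cast_one] at hd
      exact absurd (isUnit_of_dvd_one hd) hz.not_isUnit
    | prime q hq => intro _ hd; exact ⟨q, hq, hd⟩
    | mul a b iha ihb =>
      intro hn hd
      rw [Nat.cast_mul] at hd
      rcases hz.dvd_or_dvd hd with h1 | h1
      · exact iha (left_ne_zero_of_mul hn) h1
      · exact ihb (right_ne_zero_of_mul hn) h1
  have hpos : 0 < z.norm := GaussianInt.norm_pos.2 hz.ne_zero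
  have hdvd : z ∣ ((z.norm.natAbs : ℕ) : GaussianInt) := by
    rw [show ((z.norm.natAbs : ℕ) : GaussianInt) = (z.norm : GaussianInt) by
      rw [← Int.cast_natCast, GaussianInt.abs_natCast_norm], Zsqrtd.norm_eq_mul_conj]
    exact dvd_mul_right z _
  obtain ⟨q, hq, hzq⟩ := key _ (by omega) hdvd
  obtain ⟨w, hw⟩ := hzq
  have hn : z.norm * w.norm = (q : ℤ) * q := by
    rw [← Zsqrtd.norm_mul, ← hw, Zsqrtd.norm_natCast]
  have hle : z.norm ∣ (q : ℤ) * q := ⟨w.norm, hn.symm⟩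
  have hpq : (p : ℤ) ∣ (q : ℤ) * q := dvd_trans h hle
  have hpq' : p ∣ q := by
    rcases (Nat.prime_iff_prime_int.1 hp).dvd_or_dvd hpq with h1 | h1 <;>
      exact_mod_cast h1
  have := (Nat.prime_dvd_prime_iff_eq hp hq).1 hpq'
  subst this
  have hp0 : (0 : ℤ) < p := by exact_mod_cast hp.pos
  have := Int.le_of_dvd (mul_pos hp0 hp0) hle
  rw [sq]
  exact this

/-- The bound for the product of a system of `m` moduli prime to `E`. -/
@[irreducible] def sysBound (m E : ℕ) : ℕ := (2 * (2 * m + 1) ^ (4 * m + 2) * E ^ 2) ^ m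

/-- Pairwise coprime moduli `(Q t) ^ 2 + 1`, prime to a given `E`, with controlled product. -/
lemma exists_system (ι : Type) [Fintype ι] {m E : ℕ} (hm : Fintype.card ι ≤ m) (hE : 0 < E) :
    ∃ (p : ι → ℕ) (s : ι → ℤ), Pairwise (Function.onFun Nat.Coprime p) ∧
      (∀ i, 1 < p i ∧ (p i : ℤ) ∣ s i ^ 2 + 1 ∧ Nat.Coprime (p i) E) ∧
      (∏ i, p i) ≤ sysBound m E := by
  let Q := (2 * m).factorial * E
  let t : ι → ℕ := fun i => (Fintype.equivFin ι i : ℕ) + 1
  have ht : ∀ i, 1 ≤ t i ∧ t i ≤ m := fun i => by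
    have := (Fintype.equivFin ι i).isLt
    simp only [t]; omega
  have htinj : Function.Injective t := fun i j h => by
    simp only [t] at h
    exact (Fintype.equivFin ι).injective (Fin.ext (by omega))
  have hQ : 0 < Q := Nat.mul_pos (Nat.factorial_pos _) hE
  have hnQ : ∀ i q, q.Prime → q ∣ (Q * t i) ^ 2 + 1 → ¬ q ∣ Q := by
    intro i q hq h1 h2
    have h3 : q ∣ (Q * t i) ^ 2 := (h2.mul_right _).pow (by norm_num)
    exact hq.one_lt.ne' (Nat.dvd_one.1 ((Nat.dvd_add_right h3).1 h1))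
  refine ⟨fun i => (Q * t i) ^ 2 + 1, fun i => (Q * t i : ℕ), ?_, fun i => ⟨?_, ?_, ?_⟩, ?_⟩
  · intro i j hij
    refine Nat.coprime_of_dvd fun q hq h1 h2 => ?_
    have hbig : 2 * m < q := by
      by_contra h
      exact hnQ i q hq h1 ((Nat.dvd_factorial hq.pos (not_lt.1 h)).mul_right E)
    have hqi : Prime (q : ℤ) := Nat.prime_iff_prime_int.1 hq
    have h3 : (q : ℤ) ∣ (Q : ℤ) ^ 2 * (((t i : ℤ) - t j) * (t i + t j)) := by
      have h := dvd_sub (Int.natCast_dvd_natCast.2 h1) (Int.natCast_dvd_natCast.2 h2)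
      push_cast at h
      rw [show (Q : ℤ) ^ 2 * (((t i : ℤ) - t j) * (t i + t j))
        = (Q * t i) ^ 2 + 1 - ((Q * t j) ^ 2 + 1) by ring]
      exact h
    have hne : t i ≠ t j := fun h => hij (htinj h)
    rcases hqi.dvd_or_dvd h3 with h | h
    · exact hnQ i q hq h1 (Int.natCast_dvd_natCast.1 (hqi.dvd_of_dvd_pow h))
    · rcases hqi.dvd_or_dvd h with h | h <;>
      · have := Int.eq_zero_of_dvd_of_natAbs_lt_natAbs h (by have := ht i; have := ht j; omega)
        have := ht i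
        omega
  · have h0 : 0 < Q * t i := Nat.mul_pos hQ (ht i).1
    have : 0 < (Q * t i) ^ 2 := Nat.pow_pos h0
    show 1 < (Q * t i) ^ 2 + 1
    omega
  · push_cast
    exact dvd_rfl
  · exact Nat.coprime_of_dvd fun q hq h1 h2 => hnQ i q hq h1 (h2.mul_left _)
  · unfold sysBound
    have hb : ∀ i, (Q * t i) ^ 2 + 1 ≤ 2 * (2 * m + 1) ^ (4 * m + 2) * E ^ 2 := by
      intro i
      have h1 : (2 * m).factorial ≤ (2 * m + 1) ^ (2 * m) :=
        (Nat.factorial_le_pow _).trans (Nat.pow_le_pow_left (by omega) _)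
      have h2 : Q * t i ≤ (2 * m + 1) ^ (2 * m + 1) * E := by
        rw [pow_succ, mul_right_comm _ (2 * m + 1) E]
        exact Nat.mul_le_mul (Nat.mul_le_mul_right E h1) (by have := ht i; omega)
      have h3 := Nat.pow_le_pow_left h2 2
      rw [mul_pow _ E, ← pow_mul, show (2 * m + 1) * 2 = 4 * m + 2 by ring] at h3
      have : 0 < (2 * m + 1) ^ (4 * m + 2) * E ^ 2 :=
        Nat.mul_pos (Nat.pow_pos (by omega)) (Nat.pow_pos hE)
      rw [mul_assoc 2]
      omega
    refine le_trans (Finset.prod_le_pow_card _ _ _ fun i _ => hb i) ?_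
    refine Nat.pow_le_pow_right ?_ hm
    exact Nat.mul_pos (Nat.mul_pos two_pos (Nat.pow_pos (by omega))) (Nat.pow_pos hE)

/-- The Chinese remainder step: along the progression `c + k w` some point has all its
prescribed translates divisible by the moduli of the system. -/
lemma exists_step {ι : Type} [Fintype ι] (p : ι → ℕ) (hp : ∀ i, 1 < p i)
    (hco : Pairwise (Function.onFun Nat.Coprime p)) (A B : ι → ℤ)
    (hB : ∀ i, IsCoprime (B i) (p i : ℤ)) :
    ∃ k : ℕ, k < ∏ i, p i ∧ ∀ i, (p i : ℤ) ∣ A i + k * B i := by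
  choose x y hxy using hB
  let r : ι → ℕ := fun i => ((-(A i * x i)) % (p i : ℤ)).toNat
  have hs : ∀ i ∈ (univ : Finset ι), p i ≠ 0 := fun i _ => by have := hp i; omega
  have pp : Set.Pairwise (↑(univ : Finset ι)) (Function.onFun Nat.Coprime p) :=
    fun i _ j _ hij => hco hij
  refine ⟨Nat.chineseRemainderOfFinset r p univ hs pp,
    Nat.chineseRemainderOfFinset_lt_prod r p hs pp, fun i => ?_⟩
  have h1 := (Nat.chineseRemainderOfFinset r p univ hs pp).2 i (mem_univ i)
  have h2 := Nat.modEq_iff_dvd.1 h1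
  have h3 : ((r i : ℕ) : ℤ) = (-(A i * x i)) % (p i : ℤ) :=
    Int.toNat_of_nonneg (Int.emod_nonneg _ (by have := hp i; omega))
  have h4 := Int.dvd_self_sub_emod (x := -(A i * x i)) (m := (p i : ℤ))
  rw [h3] at h2
  set k : ℤ := ((Nat.chineseRemainderOfFinset r p univ hs pp : ℕ) : ℤ)
  rw [show A i + k * B i = A i * (y i * p i) - ((-(A i * x i)) % (p i : ℤ) - k) * B i
      - (-(A i * x i) - (-(A i * x i)) % (p i : ℤ)) * B i by linear_combination -A i * hxy i]
  exact dvd_sub (dvd_sub ((dvd_mul_left _ _).mul_left _) (h2.mul_right _)) (h4.mul_right _)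

/-- A primitive integer vector of size at most `2 n` almost parallel to a unit vector. -/
lemma exists_dir (u : ℂ) (hu : ‖u‖ = 1) {n : ℕ} (hn : 0 < n) :
    ∃ a b : ℤ, IsCoprime a b ∧ |a| ≤ 2 * n ∧ |b| ≤ 2 * n ∧
      |(b : ℝ) * u.re - a * u.im| ≤ 1 / (n + 1) := by
  have main : ∀ c s : ℝ, |c| ≤ 1 → c ≠ 0 → |s| ≤ |c| →
      ∃ a b : ℤ, IsCoprime a b ∧ |a| ≤ 2 * n ∧ |b| ≤ 2 * n ∧
        |(b : ℝ) * c - a * s| ≤ 1 / (n + 1) := by
    intro c s hc hc0 hsc
    obtain ⟨q, hq, hqn⟩ := Real.exists_rat_abs_sub_le_and_den_le (s / c) hn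
    have hd : (0 : ℝ) < q.den := by exact_mod_cast q.pos
    have hd1 : (1 : ℝ) ≤ q.den := by exact_mod_cast q.pos
    have hnum : (q.num : ℝ) = q * q.den := by
      rw [← Rat.cast_natCast, ← Rat.cast_mul, Rat.mul_den_eq_num, Rat.cast_intCast]
    have he : |(q.num : ℝ) * c - (q.den : ℝ) * s| ≤ 1 / (n + 1) := by
      have : (q.num : ℝ) * c - q.den * s = -(q.den * c * (s / c - q)) := by
        rw [hnum]; field_simp; ring
      rw [this, abs_neg, abs_mul, abs_mul, Nat.abs_cast]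
      calc (q.den : ℝ) * |c| * |s / c - q| ≤ q.den * 1 * (1 / ((n + 1) * q.den)) := by gcongr
        _ = 1 / (n + 1) := by field_simp
    refine ⟨q.den, q.num, ?_, ?_, ?_, by exact_mod_cast he⟩
    · rw [Int.isCoprime_iff_nat_coprime]
      simpa [Nat.coprime_comm] using q.reduced
    · rw [Nat.abs_cast]; exact_mod_cast le_trans hqn (by omega)
    · have h1 : |(q : ℝ)| ≤ 1 + 1 / ((n + 1) * q.den) := by
        have : |s / c| ≤ 1 := by
          rw [abs_div, div_le_one (abs_pos.2 hc0)]; exact hsc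
        calc |(q : ℝ)| = |s / c - (s / c - q)| := by ring_nf
          _ ≤ |s / c| + |s / c - q| := abs_sub _ _
          _ ≤ 1 + 1 / ((n + 1) * q.den) := add_le_add this hq
      have h2 : |(q.num : ℝ)| ≤ 2 * n := by
        rw [hnum, abs_mul, Nat.abs_cast]
        have hn1 : (1 : ℝ) ≤ n := by exact_mod_cast hn
        have hqn' : (q.den : ℝ) ≤ n := by exact_mod_cast hqn
        calc |(q : ℝ)| * q.den ≤ (1 + 1 / ((n + 1) * q.den)) * q.den := by gcongr
          _ = q.den + 1 / ((n : ℝ) + 1) := by field_simp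
          _ ≤ n + 1 := add_le_add hqn' ((div_le_one (by positivity)).2 (by linarith))
          _ ≤ 2 * n := by linarith
      exact_mod_cast h2
  have hre : |u.re| ≤ 1 := hu ▸ Complex.abs_re_le_norm u
  have him : |u.im| ≤ 1 := hu ▸ Complex.abs_im_le_norm u
  rcases le_total |u.im| |u.re| with h | h
  · refine main u.re u.im hre ?_ h
    intro h0
    have : u = 0 := Complex.ext h0 (by simpa [h0] using h)
    simp [this] at hu
  · have h0 : u.im ≠ 0 := by
      intro h0
      have : u = 0 := Complex.ext (by simpa [h0] using h) h0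
      simp [this] at hu
    obtain ⟨a, b, hab, ha, hb, he⟩ := main u.im u.re him h0 h
    exact ⟨b, a, hab.symm, hb, ha, by rw [abs_sub_comm]; exact he⟩

/-- If `X` and `Y` are coprime, some `X + j Y` is prime to every modulus of a system. -/
lemma exists_good_multiple {ι : Type} [Fintype ι] (p : ι → ℕ) (hp : ∀ i, 1 < p i)
    (hco : Pairwise (Function.onFun Nat.Coprime p)) (X Y : ι → ℤ)
    (hXY : ∀ i, IsCoprime (X i) (Y i)) :
    ∃ j : ℕ, j < ∏ i, p i ∧ ∀ i, IsCoprime (X i + j * Y i) (p i : ℤ) := by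
  classical
  let J : ι → ℕ := fun i => ∏ q ∈ (p i).primeFactors with ¬ (((q : ℕ) : ℤ) ∣ X i), q
  obtain ⟨j, hj, hj'⟩ := exists_step p hp hco (fun i => -(J i : ℤ)) (fun _ => 1)
    (fun i => isCoprime_one_left)
  refine ⟨j, hj, fun i => ?_⟩
  rw [Int.isCoprime_iff_nat_coprime]
  refine Nat.coprime_of_dvd fun q hq h1 h2 => ?_
  simp only [Int.natAbs_natCast] at h2
  have hqi : Prime (q : ℤ) := Nat.prime_iff_prime_int.1 hq
  have h3 : (q : ℤ) ∣ X i + j * Y i := Int.natCast_dvd.2 h1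
  have h4 : (q : ℤ) ∣ -(J i : ℤ) + j * 1 := (Int.natCast_dvd_natCast.2 h2).trans (hj' i)
  by_cases hX : (q : ℤ) ∣ X i
  · have h5 : (q : ℤ) ∣ (j : ℤ) * Y i := by
      have := dvd_sub h3 hX
      rwa [add_sub_cancel_left] at this
    rcases hqi.dvd_or_dvd h5 with h | h
    · have h6 : q ∣ J i := by
        rw [← Int.natCast_dvd_natCast]
        have := dvd_sub h h4
        rwa [mul_one, sub_add_cancel_right, neg_neg] at this
      obtain ⟨q', hq', hqq'⟩ := (Prime.dvd_finsetProd_iff hq.prime _).1 h6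
      rw [Finset.mem_filter] at hq'
      rw [(Nat.prime_dvd_prime_iff_eq hq (Nat.prime_of_mem_primeFactors hq'.1)).1 hqq'] at hX
      exact hq'.2 hX
    · exact hqi.not_unit ((hXY i).isUnit_of_dvd' hX h)
  · have h5 : q ∣ J i := Finset.dvd_prod_of_mem _ (Finset.mem_filter.2
      ⟨Nat.mem_primeFactors.2 ⟨hq, h2, by have := hp i; omega⟩, hX⟩)
    have h6 : (q : ℤ) ∣ (j : ℤ) := by
      have := dvd_add h4 (Int.natCast_dvd_natCast.2 h5)
      rwa [mul_one, add_comm (-(J i : ℤ)), neg_add_cancel_right] at this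
    exact hX ((dvd_add_left (h6.mul_right (Y i))).1 h3)

/-- One system and one vector prime to its moduli, nearly parallel to `u`, give a blocker. -/
lemma blocker_of_vector (O : Finset (ℤ × ℤ)) (N S : ℕ) (p : ↥O → ℕ) (s : ↥O → ℤ)
    (u : ℂ) (c : GaussianInt) (a b : ℤ) (hco : Pairwise (Function.onFun Nat.Coprime p))
    (hp : ∀ i, 1 < p i ∧ (p i : ℤ) ∣ s i ^ 2 + 1) (hN : (∏ i, p i) ≤ N)
    (hab : ∀ i, IsCoprime (a + s i * b) (p i : ℤ)) (ha : |a| ≤ S) (hb : |b| ≤ S)
    (he : (N : ℝ) * |(b : ℝ) * u.re - a * u.im| ≤ 1) :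
    ∃ c' : GaussianInt, |(((c' : ℂ) - c) * star u).im| ≤ 1 ∧
      ‖(c' : ℂ) - c‖ ≤ 2 * N * S ∧
      ∀ z : GaussianInt, Prime z → (z.re - c'.re, z.im - c'.im) ∈ O → ‖(z : ℂ)‖ ≤ N := by
  obtain ⟨k, hk, hk'⟩ := exists_step p (fun i => (hp i).1) hco
    (fun i => (c.re + i.1.1) + s i * (c.im + i.1.2)) (fun i => a + s i * b) hab
  let c' : GaussianInt := ⟨c.re + k * a, c.im + k * b⟩
  have hsub : (c' : ℂ) - c = (k : ℂ) * ((a : ℂ) + b * Complex.I) := by
    simp [c', GaussianInt.toComplex_def]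
    ring
  have hk1 : (k : ℝ) ≤ N := by exact_mod_cast le_trans hk.le hN
  refine ⟨c', ?_, ?_, ?_⟩
  · rw [hsub]
    have : ((k : ℂ) * ((a : ℂ) + b * Complex.I) * star u).im
        = k * ((b : ℝ) * u.re - a * u.im) := by simp; ring
    rw [this, abs_mul, Nat.abs_cast]
    refine le_trans ?_ he
    gcongr
  · rw [hsub, norm_mul, Complex.norm_natCast]
    have ha' : |(a : ℝ)| ≤ S := by exact_mod_cast ha
    have hb' : |(b : ℝ)| ≤ S := by exact_mod_cast hb
    have : ‖(a : ℂ) + b * Complex.I‖ ≤ 2 * S := by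
      refine le_trans (norm_add_le _ _) ?_
      simp only [norm_mul, Complex.norm_intCast, Complex.norm_I, mul_one]
      linarith
    calc (k : ℝ) * ‖(a : ℂ) + b * Complex.I‖ ≤ N * (2 * S) := by gcongr
      _ = 2 * N * S := by ring
  · intro z hz hd
    let i : ↥O := ⟨_, hd⟩
    have h3 : (p i : ℤ) ∣ z.re + s i * z.im := by
      have e : z.re + s i * z.im
          = c.re + i.1.1 + s i * (c.im + i.1.2) + k * (a + s i * b) := by
        simp only [i, c']
        ring
      rw [e]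
      exact hk' i
    have h4 : (p i : ℤ) ∣ z.norm := by
      rw [show z.norm = (z.re + s i * z.im) * (z.re - s i * z.im)
        + (s i ^ 2 + 1) * (z.im * z.im) by rw [Zsqrtd.norm_def]; ring]
      exact dvd_add (h3.mul_right _) ((hp i).2.mul_right _)
    have hq : (p i).minFac.Prime := Nat.minFac_prime (by have := (hp i).1; omega)
    have h5 := norm_le_sq_of_dvd hz hq
      ((Int.natCast_dvd_natCast.2 (Nat.minFac_dvd _)).trans h4)
    have h6 : (p i).minFac ≤ N := le_trans (Nat.minFac_le (by have := (hp i).1; omega))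
      (le_trans (Finset.single_le_prod' (fun j _ => (hp j).1.le) (Finset.mem_univ i)) hN)
    have h7 : ‖(z : ℂ)‖ ^ 2 ≤ ((p i).minFac : ℝ) ^ 2 := by
      rw [← Complex.normSq_eq_norm_sq, ← GaussianInt.intCast_real_norm]
      exact_mod_cast h5
    refine le_trans ?_ (Nat.cast_le.2 h6)
    exact abs_le_of_sq_le_sq' h7 (by positivity) |>.2

/-- A primitive vector that is not short extends to a basis whose second vector is no longer
and is also nearly parallel to `u`. -/
lemma exists_complement (u : ℂ) (hu : ‖u‖ = 1) {n K : ℕ} (hK : 0 < K) {a b : ℤ}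
    (hab : IsCoprime a b) (ha : |a| ≤ 2 * n) (hb : |b| ≤ 2 * n)
    (hsmall : ¬ (|a| < (K : ℤ) ∧ |b| < (K : ℤ))) :
    ∃ a' b' : ℤ, a * b' - b * a' = 1 ∧ |a'| ≤ 4 * n + 1 ∧ |b'| ≤ 4 * n + 1 ∧
      |(b' : ℝ) * u.re - a' * u.im| ≤ |(b : ℝ) * u.re - a * u.im| + 2 / K := by
  obtain ⟨x, y, hxy⟩ := hab
  let D0 : ℤ := a * a + b * b
  have hbig : (K : ℤ) ≤ |a| + |b| := by
    rcases not_and_or.1 hsmall with h | h
    · linarith [not_lt.1 h, abs_nonneg b]
    · linarith [not_lt.1 h, abs_nonneg a]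
  have hD0 : 0 < D0 := by
    rcases eq_or_ne a 0 with h | h
    · subst h
      have : b ≠ 0 := by rintro rfl; simp at hxy
      simpa [D0] using mul_self_pos.2 this
    · have := mul_self_pos.2 h
      nlinarith [mul_self_nonneg b]
  let d0 : ℤ := -y * a + x * b
  let t : ℤ := (2 * d0 + D0) / (2 * D0)
  let a' : ℤ := -y - t * a
  let b' : ℤ := x - t * b
  let d : ℤ := a' * a + b' * b
  have hdet : a * b' - b * a' = 1 := by simp only [a', b']; linear_combination hxy
  have hd : 2 * |d| ≤ D0 := by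
    have e1 := Int.mul_ediv_add_emod (2 * d0 + D0) (2 * D0)
    have e2 := Int.emod_nonneg (2 * d0 + D0) (by omega : 2 * D0 ≠ 0)
    have e3 := Int.emod_lt_of_pos (2 * d0 + D0) (by omega : 0 < 2 * D0)
    have : 2 * d = (2 * d0 + D0) % (2 * D0) - D0 := by
      simp only [d, a', b', d0, D0, t] at e1 ⊢
      linarith
    rw [← abs_two, ← abs_mul, abs_le]
    constructor <;> linarith
  have hsize : a' * a' + b' * b' ≤ D0 + 1 := by
    have h1 : D0 * (a' * a' + b' * b') = d * d + 1 := by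
      simp only [D0, d]
      linear_combination (a * b' - b * a' + 1) * hdet
    have h2 : d * d ≤ D0 * D0 := by
      rw [← abs_mul_abs_self d]
      nlinarith [abs_nonneg d]
    by_contra h3
    nlinarith
  have ha' : |a'| ≤ 4 * n + 1 := by
    have h2n : D0 ≤ 8 * (n : ℤ) * n := by
      have h1 := abs_le.1 ha
      have h2 := abs_le.1 hb
      nlinarith
    exact abs_le_of_sq_le_sq (by nlinarith [mul_self_nonneg b']) (by positivity)
  have hb' : |b'| ≤ 4 * n + 1 := by
    have h2n : D0 ≤ 8 * (n : ℤ) * n := by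
      have h1 := abs_le.1 ha
      have h2 := abs_le.1 hb
      nlinarith
    exact abs_le_of_sq_le_sq (by nlinarith [mul_self_nonneg a']) (by positivity)
  refine ⟨a', b', hdet, ha', hb', ?_⟩
  set e := (b : ℝ) * u.re - a * u.im
  set g := (a : ℝ) * u.re + b * u.im
  set e' := (b' : ℝ) * u.re - a' * u.im
  have hdetR : (a : ℝ) * b' - b * a' = 1 := by exact_mod_cast hdet
  have hid : (D0 : ℝ) * e' = (d : ℝ) * e + g := by
    simp only [D0, d, e', e, g]
    push_cast
    linear_combination ((a : ℝ) * u.re + b * u.im) * hdetR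
  have hDpos : (0 : ℝ) < D0 := by exact_mod_cast hD0
  have hKpos : (0 : ℝ) < K := by exact_mod_cast hK
  have hg : |g| * K ≤ 2 * D0 := by
    have h1 : |g| ≤ |(a : ℝ)| + |(b : ℝ)| := by
      refine le_trans (abs_add_le _ _) ?_
      rw [abs_mul, abs_mul]
      exact add_le_add
        (mul_le_of_le_one_right (abs_nonneg _) (hu ▸ Complex.abs_re_le_norm u))
        (mul_le_of_le_one_right (abs_nonneg _) (hu ▸ Complex.abs_im_le_norm u))
    have h2 : (K : ℝ) ≤ |(a : ℝ)| + |(b : ℝ)| := by exact_mod_cast hbig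
    have h3 : (D0 : ℝ) = |(a : ℝ)| * |(a : ℝ)| + |(b : ℝ)| * |(b : ℝ)| := by
      simp [D0, abs_mul_abs_self]
    calc |g| * K ≤ (|(a : ℝ)| + |(b : ℝ)|) * (|(a : ℝ)| + |(b : ℝ)|) := by gcongr
      _ ≤ 2 * D0 := by rw [h3]; nlinarith [sq_nonneg (|(a : ℝ)| - |(b : ℝ)|)]
  have hdR : 2 * |(d : ℝ)| ≤ D0 := by exact_mod_cast hd
  have he' : |e'| ≤ |e| + 2 / K := by
    rw [← mul_le_mul_iff_right₀ hDpos, ← abs_of_pos hDpos, ← abs_mul, abs_of_pos hDpos, hid]
    refine le_trans (abs_add_le _ _) ?_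
    rw [abs_mul, mul_add]
    refine add_le_add ?_ ?_
    · nlinarith [abs_nonneg e, abs_nonneg (d : ℝ)]
    · rw [mul_div_assoc', le_div_iff₀ hKpos]; linarith
  exact he'

/-- The numerical step for a short vector. -/
lemma small_err {n NA NB e : ℝ} (hn : n = 2 * (NA + 1) * (NA + NB)) (hA : 0 ≤ NA)
    (hB : 0 ≤ NB) (he : e ≤ 1 / (n + 1)) : NB * e ≤ 1 := by
  have hn0 : 0 ≤ n := by rw [hn]; positivity
  refine le_trans (mul_le_mul_of_nonneg_left he hB) ?_
  rw [mul_one_div, div_le_one (by positivity), hn]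
  nlinarith

/-- The numerical step for a long vector. -/
lemma big_err {n NA NB j e e' K : ℝ} (hn : n = 2 * (NA + 1) * (NA + NB))
    (hA : 0 < NA) (hB : 0 ≤ NB) (hK : K = 4 * NA) (hj0 : 0 ≤ j) (hj : j ≤ NA)
    (he : |e| ≤ 1 / (n + 1)) (he' : |e'| ≤ |e| + 2 / K) : NA * |e' + j * e| ≤ 1 := by
  have hn0 : 0 ≤ n := by rw [hn]; positivity
  have h0 : |e' + j * e| ≤ (NA + 1) * (1 / (n + 1)) + 2 / K := by
    refine le_trans (abs_add_le _ _) ?_
    rw [abs_mul, abs_of_nonneg hj0]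
    have : j * |e| ≤ NA * (1 / (n + 1)) := mul_le_mul hj he (abs_nonneg e) hA.le
    linarith
  have h1 : NA * ((NA + 1) * (1 / (n + 1))) ≤ 1 / 2 := by
    rw [mul_one_div, mul_div_assoc', div_le_iff₀ (by positivity), hn]
    nlinarith
  have h2 : NA * (2 / K) = 1 / 2 := by
    rw [hK]
    field_simp
    ring
  have := mul_le_mul_of_nonneg_left h0 hA.le
  linarith

/-- A vector is prime to every modulus prime to its norm. -/
lemma short_avoids {N : ℕ} {s a b : ℤ} (hs : (N : ℤ) ∣ s ^ 2 + 1)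
    (hE : IsCoprime (a * a + b * b) (N : ℤ)) : IsCoprime (a + s * b) (N : ℤ) := by
  obtain ⟨w, hw⟩ := hs
  have h : a * a + b * b = (a + s * b) * (a - s * b) + (N : ℤ) * (w * (b * b)) := by
    linear_combination (b * b) * hw
  rw [h] at hE
  exact (hE.of_add_mul_left_left).of_mul_left_left

/-- The total size of the moduli used for `m` offsets. -/
@[irreducible] def blockBound (m : ℕ) : ℕ := (2 * m + 1) ^ (112 * m ^ 3)

lemma sysBound_mono (m : ℕ) {E E' : ℕ} (h : E ≤ E') : sysBound m E ≤ sysBound m E' := by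
  unfold sysBound
  gcongr

lemma sysBound_pos (m : ℕ) {E : ℕ} (hE : 0 < E) : 0 < sysBound m E := by
  unfold sysBound
  positivity

lemma sysBound_le (m : ℕ) :
    sysBound m (2 * (4 * sysBound m 1) * (4 * sysBound m 1)) ≤ blockBound m := by
  rcases Nat.eq_zero_or_pos m with rfl | hm
  · simp [sysBound, blockBound]
  unfold sysBound blockBound
  set Y := 2 * m + 1 with hY
  have h2 : 2 ≤ Y := by omega
  set X := Y ^ (4 * m + 2) with hX
  have e1 : 2 * (4 * (2 * X * 1 ^ 2) ^ m) * (4 * (2 * X * 1 ^ 2) ^ m) = 32 * (2 * X) ^ (2 * m) := by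
    ring
  have hX2 : 2 * X ≤ Y ^ (4 * m + 3) := by
    rw [pow_succ' Y (4 * m + 2), hX]
    gcongr
  rw [e1]
  calc (2 * X * (32 * (2 * X) ^ (2 * m)) ^ 2) ^ m
      = (2 ^ 10 * (2 * X) ^ (4 * m + 1)) ^ m := by congr 1; ring
    _ ≤ (Y ^ 10 * (Y ^ (4 * m + 3)) ^ (4 * m + 1)) ^ m := by gcongr
    _ = Y ^ ((10 + (4 * m + 3) * (4 * m + 1)) * m) := by
      rw [← pow_mul Y (4 * m + 3), ← pow_add, ← pow_mul]
    _ ≤ Y ^ (112 * m ^ 3) := by
      refine Nat.pow_le_pow_right (by omega) ?_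
      have : 10 + (4 * m + 3) * (4 * m + 1) ≤ 112 * m ^ 2 := by nlinarith
      calc _ ≤ 112 * m ^ 2 * m := Nat.mul_le_mul_right m this
        _ = 112 * m ^ 3 := by ring

/-- The size of a short primitive vector. -/
lemma short_norm {a b : ℤ} {K : ℕ} (hab : IsCoprime a b) (ha : |a| < (K : ℤ))
    (hb : |b| < (K : ℤ)) :
    0 < (a * a + b * b).natAbs ∧ (a * a + b * b).natAbs ≤ 2 * K * K := by
  have h1 := abs_lt.1 ha
  have h2 := abs_lt.1 hb
  refine ⟨Int.natAbs_pos.2 fun h => ?_, ?_⟩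
  · have h3 := mul_self_nonneg a
    have h4 := mul_self_nonneg b
    have h5 : a = 0 := mul_self_eq_zero.1 (by linarith)
    have h6 : b = 0 := mul_self_eq_zero.1 (by linarith)
    subst h5; subst h6
    exact not_isCoprime_zero_zero hab
  · have h3 : ((a * a + b * b).natAbs : ℤ) ≤ ((2 * K * K : ℕ) : ℤ) := by
      rw [Int.natAbs_of_nonneg (add_nonneg (mul_self_nonneg a) (mul_self_nonneg b))]
      push_cast
      nlinarith
    exact_mod_cast h3

/-- The size of the blocker shift. -/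
lemma shift_size {N NA NB n S B : ℕ} (hN : N ≤ NB) (hAB : NA ≤ NB) (hB : NB ≤ B) (hB1 : 1 ≤ B)
    (hn : n = 2 * (NA + 1) * (NA + NB)) (hS : S = (4 * n + 1) + NA * (2 * n)) :
    2 * N * S ≤ 200 * B ^ 4 := by
  have h1 : n ≤ 8 * B ^ 2 := by
    rw [hn]
    calc 2 * (NA + 1) * (NA + NB) ≤ 2 * (2 * B) * (2 * B) :=
          Nat.mul_le_mul (by omega) (by omega)
      _ = 8 * B ^ 2 := by ring
  have hB3 : B ^ 2 ≤ B ^ 3 := Nat.pow_le_pow_right hB1 (by norm_num)
  have hB0 : 1 ≤ B ^ 3 := Nat.one_le_pow _ _ hB1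
  have h2 : NA * (2 * n) ≤ 16 * B ^ 3 := by
    calc NA * (2 * n) ≤ B * (2 * (8 * B ^ 2)) := Nat.mul_le_mul (by omega) (by omega)
      _ = 16 * B ^ 3 := by ring
  calc 2 * N * S ≤ 2 * B * (100 * B ^ 3) := Nat.mul_le_mul (by omega) (by omega)
    _ = 200 * B ^ 4 := by ring

/-- For every set of at most `m` offsets, every unit direction `u` and every base point `c`,
some `c'` near `c` and within `1` of the line through `c` in direction `u` has no large Gaussian
prime at any of the offsets. -/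
lemma exists_blocker (m : ℕ) (O : Finset (ℤ × ℤ)) (hO : O.card ≤ m) (u : ℂ) (hu : ‖u‖ = 1)
    (c : GaussianInt) : ∃ c' : GaussianInt,
      |(((c' : ℂ) - c) * star u).im| ≤ 1 ∧ ‖(c' : ℂ) - c‖ ≤ 200 * (blockBound m : ℝ) ^ 4 ∧
      ∀ z : GaussianInt, Prime z → (z.re - c'.re, z.im - c'.im) ∈ O →
        ‖(z : ℂ)‖ ≤ blockBound m := by
  classical
  have hcard : Fintype.card ↥O ≤ m := by rwa [Fintype.card_coe]
  obtain ⟨NA, hNA'⟩ : ∃ N, N = sysBound m 1 := ⟨_, rfl⟩
  obtain ⟨K, hK⟩ : ∃ K, K = 4 * NA := ⟨_, rfl⟩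
  obtain ⟨NB, hNB'⟩ : ∃ N, N = sysBound m (2 * K * K) := ⟨_, rfl⟩
  have hNA : 0 < NA := hNA' ▸ sysBound_pos m one_pos
  have hK0 : 1 ≤ 2 * K * K :=
    Nat.one_le_iff_ne_zero.2 (mul_ne_zero (mul_ne_zero two_ne_zero (by omega)) (by omega))
  have hAB : NA ≤ NB := by rw [hNA', hNB']; exact sysBound_mono m hK0
  have hBB : NB ≤ blockBound m := by subst hK; subst hNA'; subst hNB'; exact sysBound_le m
  obtain ⟨n, hn'⟩ : ∃ n, n = 2 * (NA + 1) * (NA + NB) := ⟨_, rfl⟩
  have hn : 0 < n := by rw [hn']; exact Nat.mul_pos (by omega) (by omega)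
  obtain ⟨S, hS'⟩ : ∃ S : ℕ, S = (4 * n + 1) + NA * (2 * n) := ⟨_, rfl⟩
  have hS : (S : ℤ) = (4 * n + 1) + NA * (2 * n) := by subst hS'; push_cast; ring
  have hnR : (n : ℝ) = 2 * (NA + 1) * (NA + NB) := by subst hn'; push_cast; ring
  have hA0 : (0 : ℝ) < NA := by exact_mod_cast hNA
  have hB0 : (0 : ℝ) ≤ NB := Nat.cast_nonneg _
  have hsize : ∀ N : ℕ, N ≤ NB → (2 * N * S : ℝ) ≤ 200 * (blockBound m : ℝ) ^ 4 := by
    intro N hN
    exact_mod_cast shift_size hN hAB hBB (by omega) hn' hS'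
  obtain ⟨a, b, hab, ha, hb, he⟩ := exists_dir u hu hn
  have hmn : (0 : ℤ) ≤ (NA : ℤ) * (2 * n) := by positivity
  have hPNA : (NA : ℝ) ≤ blockBound m := by exact_mod_cast hAB.trans hBB
  have hPNB : (NB : ℝ) ≤ blockBound m := by exact_mod_cast hBB
  by_cases hsmall : |a| < (K : ℤ) ∧ |b| < (K : ℤ)
  · obtain ⟨hpos, hE⟩ := short_norm hab hsmall.1 hsmall.2
    obtain ⟨p, s, hco, hp, hprod⟩ := exists_system ↥O hcard hpos
    obtain ⟨c', h1, h2, h3⟩ := blocker_of_vector O NB S p s u c a b hco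
      (fun i => ⟨(hp i).1, (hp i).2.1⟩) (hNB' ▸ hprod.trans (sysBound_mono m hE))
      (fun i => short_avoids (hp i).2.1 (Int.isCoprime_iff_nat_coprime.2
        (by simpa using (hp i).2.2.symm)))
      (by linarith only [ha, hmn, hS, Int.natCast_nonneg n])
      (by linarith only [hb, hmn, hS, Int.natCast_nonneg n])
      (small_err hnR hA0.le hB0 he)
    exact ⟨c', h1, h2.trans (hsize _ le_rfl), fun z hz hd => (h3 z hz hd).trans hPNB⟩
  · obtain ⟨a', b', hdet, ha', hb', he'⟩ :=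
      exists_complement u hu (by omega : 0 < K) hab ha hb hsmall
    obtain ⟨p, s, hco, hp, hprod⟩ := exists_system ↥O hcard one_pos
    rw [← hNA'] at hprod
    obtain ⟨j, hj, hgood⟩ := exists_good_multiple p (fun i => (hp i).1) hco
      (fun i => a' + s i * b') (fun i => a + s i * b)
      (fun i => ⟨-b, b', by linear_combination hdet⟩)
    have hjA : (j : ℤ) ≤ NA := by exact_mod_cast hj.le.trans hprod
    obtain ⟨c', h1, h2, h3⟩ := blocker_of_vector O NA S p s u c (a' + j * a) (b' + j * b) hco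
      (fun i => ⟨(hp i).1, (hp i).2.1⟩) hprod
      (fun i => by convert hgood i using 1; ring) (by
        refine le_trans (abs_add_le _ _) ?_
        rw [hS, abs_mul, Nat.abs_cast]
        gcongr) (by
        refine le_trans (abs_add_le _ _) ?_
        rw [hS, abs_mul, Nat.abs_cast]
        gcongr) (by
        rw [show ((b' + j * b : ℤ) : ℝ) * u.re - ((a' + j * a : ℤ) : ℝ) * u.im
          = ((b' : ℝ) * u.re - a' * u.im) + j * ((b : ℝ) * u.re - a * u.im) by push_cast; ring]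
        exact big_err hnR hA0 hB0 (by exact_mod_cast hK) (Nat.cast_nonneg j)
          (by exact_mod_cast hjA) he he')
    exact ⟨c', h1, h2.trans (hsize _ hAB), fun z hz hd => (h3 z hz hd).trans hPNA⟩

end Vale.Agent.P015
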