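import Mathlib
import Vale.Agent.P015.Blocker

/-!
Walks of Gaussian primes with bounded steps cannot run along a strip.
-/

namespace Vale.Agent.P015

/-- A walk on the line with steps at most `D` comes within `D` of every point between its ends. -/
lemma exists_near {m : ℕ} {t : ℕ → ℝ} {D x : ℝ} (hD : 0 ≤ D)
    (h : ∀ i < m, |t (i + 1) - t i| ≤ D) (hx : (t 0 - x) * (t m - x) ≤ 0) :
    ∃ i ≤ m, |t i - x| ≤ D := by
  induction m with
  | zero => exact ⟨0, le_rfl, by rw [show t 0 - x = 0 by nlinarith]; simpa using hD⟩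
  | succ k ih =>
    by_cases hc : (t 0 - x) * (t k - x) ≤ 0
    · obtain ⟨i, hi, hi'⟩ := ih (fun i hi => h i (by omega)) hc
      exact ⟨i, by omega, hi'⟩
    · refine ⟨k, by omega, ?_⟩
      have hk := abs_le.1 (h k (by omega))
      have hc' := not_le.1 hc
      rw [abs_le]
      constructor <;> by_contra hh <;>
        rcases mul_pos_iff.1 hc' with ⟨h1, h2⟩ | ⟨h1, h2⟩ <;> nlinarith

/-- A disc holds finitely many Gaussian integers. -/
lemma finite_ball (B : ℝ) : {w : GaussianInt | ‖(w : ℂ)‖ ≤ B}.Finite := by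
  refine Set.Finite.of_finite_image (f := fun w => (w.re, w.im)) ?_
    (fun v _ w _ h => Zsqrtd.ext (Prod.ext_iff.1 h).1 (Prod.ext_iff.1 h).2)
  refine ((Set.finite_Icc (-⌈B⌉) ⌈B⌉).prod (Set.finite_Icc (-⌈B⌉) ⌈B⌉)).subset ?_
  rintro _ ⟨w, hw, rfl⟩
  have h1 : |((w.re : ℤ) : ℝ)| ≤ ⌈B⌉ := by
    rw [GaussianInt.intCast_re]
    exact le_trans (Complex.abs_re_le_norm _) (le_trans hw (Int.le_ceil B))
  have h2 : |((w.im : ℤ) : ℝ)| ≤ ⌈B⌉ := by
    rw [GaussianInt.intCast_im]
    exact le_trans (Complex.abs_im_le_norm _) (le_trans hw (Int.le_ceil B))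
  have h1' : |w.re| ≤ ⌈B⌉ := by exact_mod_cast h1
  have h2' : |w.im| ≤ ⌈B⌉ := by exact_mod_cast h2
  exact Set.mk_mem_prod (abs_le.1 h1') (abs_le.1 h2')

/-- The lattice offsets used to block the rectangle `[-A, A] × [-B, B]` turned by `u`. -/
noncomputable def offsets (u : ℂ) (A B : ℕ) : Finset (ℤ × ℤ) :=
  ((Finset.Icc (-(A : ℤ)) A ×ˢ Finset.Icc (-(B : ℤ)) B) ×ˢ
    (Finset.Icc (-2 : ℤ) 2 ×ˢ Finset.Icc (-2 : ℤ) 2)).image fun v =>
      (round (((v.1.1 : ℂ) + v.1.2 * Complex.I) * u).re + v.2.1,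
        round (((v.1.1 : ℂ) + v.1.2 * Complex.I) * u).im + v.2.2)

lemma card_offsets (u : ℂ) (A B : ℕ) :
    (offsets u A B).card ≤ 25 * ((2 * A + 1) * (2 * B + 1)) := by
  refine Finset.card_image_le.trans ?_
  simp only [Finset.card_product, Int.card_Icc]
  rw [show ((A : ℤ) + 1 - -(A : ℤ)).toNat = 2 * A + 1 by omega,
    show ((B : ℤ) + 1 - -(B : ℤ)).toNat = 2 * B + 1 by omega]
  rw [show ((2 : ℤ) + 1 - -2).toNat = 5 from rfl]
  exact le_of_eq (by ring)

lemma round_mem_Icc {x : ℝ} {A : ℕ} (h : |x| ≤ A) : round x ∈ Finset.Icc (-(A : ℤ)) A := by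
  have h1 := abs_le.1 h
  have h2 := abs_le.1 (abs_sub_round x)
  rw [Finset.mem_Icc]
  constructor
  · by_contra h3
    have : ((round x : ℤ) : ℝ) ≤ -(A : ℝ) - 1 := by
      exact_mod_cast (by omega : round x ≤ -(A : ℤ) - 1)
    linarith
  · by_contra h3
    have : (A : ℝ) + 1 ≤ ((round x : ℤ) : ℝ) := by
      exact_mod_cast (by omega : (A : ℤ) + 1 ≤ round x)
    linarith

lemma sub_round_mem {a : ℤ} {p : ℝ} (h : |(a : ℝ) - p| ≤ 1) :
    a - round p ∈ Finset.Icc (-2 : ℤ) 2 := by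
  have h2 := abs_sub_round p
  have h3 : |((a - round p : ℤ) : ℝ)| ≤ ((2 : ℤ) : ℝ) := by
    push_cast
    exact (abs_sub_le _ p _).trans (by linarith)
  rw [← Int.cast_abs, Int.cast_le] at h3
  exact Finset.mem_Icc.2 (abs_le.1 h3)

/-- A lattice vector in the turned rectangle is one of the offsets. -/
lemma mem_offsets {u : ℂ} (hu : ‖u‖ = 1) {A B : ℕ} {a b : ℤ}
    (hre : |(((a : ℂ) + b * Complex.I) * star u).re| ≤ A)
    (him : |(((a : ℂ) + b * Complex.I) * star u).im| ≤ B) : (a, b) ∈ offsets u A B := by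
  set w : ℂ := ((a : ℂ) + b * Complex.I) * star u with hw
  set pt : ℂ := ((round w.re : ℂ) + round w.im * Complex.I) * u with hpt
  have hw2 : w * u = (a : ℂ) + b * Complex.I := by
    rw [hw, mul_assoc, Complex.star_def, mul_comm ((starRingEnd ℂ) u), Complex.mul_conj,
      Complex.normSq_eq_norm_sq, hu]
    simp
  have hd : ‖((a : ℂ) + b * Complex.I) - pt‖ ≤ 1 := by
    rw [← hw2, hpt, ← sub_mul, norm_mul, hu, mul_one]
    refine le_trans (Complex.norm_le_abs_re_add_abs_im _) ?_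
    simp only [Complex.sub_re, Complex.sub_im, Complex.add_re, Complex.add_im, Complex.mul_re,
      Complex.mul_im, Complex.intCast_re, Complex.intCast_im, Complex.I_re, Complex.I_im,
      mul_zero, mul_one, sub_zero, add_zero, zero_add]
    linarith [abs_sub_round w.re, abs_sub_round w.im]
  rw [offsets, Finset.mem_image]
  refine ⟨((round w.re, round w.im), (a - round pt.re, b - round pt.im)), ?_, ?_⟩
  · refine Finset.mk_mem_product (Finset.mk_mem_product (round_mem_Icc hre) (round_mem_Icc him))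
      (Finset.mk_mem_product (sub_round_mem ?_) (sub_round_mem ?_))
    · exact le_trans (le_of_eq (by simp)) ((Complex.abs_re_le_norm _).trans hd)
    · exact le_trans (le_of_eq (by simp)) ((Complex.abs_im_le_norm _).trans hd)
  · simp only [← hpt, add_sub_cancel]

/-- The number of offsets used for steps `D` and width `W`. -/
noncomputable def offsetCount (D W : ℝ) : ℕ :=
  25 * ((2 * ⌈max D 0⌉₊ + 1) * (2 * (⌈max W 0⌉₊ + 2) + 1))

/-- The length bound for a walk in a strip. -/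
noncomputable def stripLength (D W : ℝ) : ℝ :=
  4 * (200 * (blockBound (offsetCount D W) : ℝ) ^ 4 + blockBound (offsetCount D W) +
    max D 0 + 3) + 2 * max W 0

lemma stripLength_nonneg (D W : ℝ) : 0 ≤ stripLength D W := by
  have := le_max_right D 0
  have := le_max_right W 0
  unfold stripLength
  positivity

/-- Bound for walks of Gaussian primes inside strips. -/
theorem strip_walk (D W : ℝ) (q u : ℂ) (hu : ‖u‖ = 1) (m : ℕ) (z : ℕ → GaussianInt)
    (hz : ∀ i ≤ m, Prime (z i) ∧ |(((z i : ℂ) - q) * star u).im| ≤ W)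
    (hstep : ∀ i < m, ‖(z (i + 1) : ℂ) - z i‖ ≤ D) :
    ‖(z m : ℂ) - z 0‖ ≤ stripLength D W := by
  let D' := max D 0
  let W' := max W 0
  let A : ℕ := ⌈D'⌉₊
  let B : ℕ := ⌈W'⌉₊ + 2
  obtain ⟨P, hP'⟩ : ∃ P : ℝ, P = blockBound (offsetCount D W) := ⟨_, rfl⟩
  obtain ⟨G, hG'⟩ : ∃ G : ℝ, G = 200 * (blockBound (offsetCount D W) : ℝ) ^ 4 := ⟨_, rfl⟩
  have hP : 0 ≤ P := hP' ▸ Nat.cast_nonneg _
  have hG : 0 ≤ G := hG' ▸ by positivity
  let Lt := 4 * (G + P + D' + 3)
  have hD' : 0 ≤ D' := le_max_right _ _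
  have hW' : 0 ≤ W' := le_max_right _ _
  rw [show stripLength D W = Lt + 2 * W' by simp only [stripLength, Lt, D', W', hG', hP']]
  let ξ : ℂ → ℂ := fun w => (w - q) * star u
  have hus : ‖star u‖ = 1 := by rw [norm_star, hu]
  have hiso : ∀ w w' : ℂ, ‖ξ w - ξ w'‖ = ‖w - w'‖ := by
    intro w w'
    simp only [ξ]
    rw [← sub_mul, norm_mul, hus, mul_one, sub_sub_sub_cancel_right]
  let t : ℕ → ℝ := fun i => (ξ (z i)).re
  have hh : ∀ i ≤ m, |(ξ (z i)).im| ≤ W' := fun i hi => le_trans (hz i hi).2 (le_max_left _ _)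
  have ht : ∀ i < m, |t (i + 1) - t i| ≤ D' := by
    intro i hi
    refine le_trans ?_ (le_trans (hstep i hi) (le_max_left _ _))
    rw [← hiso, ← Complex.sub_re]
    exact Complex.abs_re_le_norm _
  suffices hspan : |t m - t 0| ≤ Lt by
    rw [← hiso]
    refine le_trans (Complex.norm_le_abs_re_add_abs_im _) (add_le_add ?_ ?_)
    · simpa [t] using hspan
    · rw [Complex.sub_im]
      refine le_trans (abs_sub _ _) ?_
      linarith [hh 0 (Nat.zero_le _), hh m le_rfl]
  by_contra hcon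
  push Not at hcon
  -- the coordinate of the origin, and a target far from it between the ends
  let τ := (ξ 0).re
  obtain ⟨x, hxτ, hx⟩ : ∃ x : ℝ, Lt / 4 ≤ |x - τ| ∧
      ∀ y : ℝ, |y - x| ≤ Lt / 4 → (t 0 - y) * (t m - y) ≤ 0 := by
    by_cases hc : Lt / 4 ≤ |t 0 + (t m - t 0) / 4 - τ|
    · refine ⟨_, hc, fun y hy => ?_⟩
      rw [abs_le] at hy
      rcases lt_abs.1 hcon with h | h <;> nlinarith
    · refine ⟨t 0 + 3 * (t m - t 0) / 4, ?_, fun y hy => ?_⟩
      · have hc' := abs_lt.1 (not_le.1 hc)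
        rw [le_abs]
        rcases lt_abs.1 hcon with h | h
        · exact Or.inl (by linarith)
        · exact Or.inr (by linarith)
      · rw [abs_le] at hy
        rcases lt_abs.1 hcon with h | h <;> nlinarith
  let pt : ℂ := q + x * u
  have huu : u * star u = 1 := by
    rw [Complex.star_def, Complex.mul_conj, Complex.normSq_eq_norm_sq, hu]
    simp
  have hpt : ξ pt = x := by
    simp only [ξ, pt]
    rw [add_sub_cancel_left, mul_assoc, huu, mul_one]
  let c : GaussianInt := ⟨round pt.re, round pt.im⟩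
  have hc : ‖(c : ℂ) - pt‖ ≤ 1 := by
    refine le_trans (Complex.norm_le_abs_re_add_abs_im _) ?_
    have h1 : ((c : ℂ) - pt).re = round pt.re - pt.re := by simp [c, GaussianInt.toComplex_def]
    have h2 : ((c : ℂ) - pt).im = round pt.im - pt.im := by simp [c, GaussianInt.toComplex_def]
    rw [h1, h2, abs_sub_comm, abs_sub_comm (round pt.im : ℝ)]
    linarith [abs_sub_round pt.re, abs_sub_round pt.im]
  obtain ⟨c', hc1, hc2, hc3⟩ :=
    exists_blocker (offsetCount D W) (offsets u A B) (card_offsets u A B) u hu c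
  rw [← hG'] at hc2
  have hsplit : ξ c' = ((c' : ℂ) - c) * star u + (ξ c - ξ pt) + x := by
    rw [hpt]; simp only [ξ]; ring
  have hcpt : ‖ξ c - ξ pt‖ ≤ 1 := by rw [hiso]; exact hc
  have him : |(ξ c').im| ≤ 2 := by
    rw [hsplit, Complex.add_im, Complex.add_im, Complex.ofReal_im, add_zero]
    refine le_trans (abs_add_le _ _) ?_
    linarith [le_trans (Complex.abs_im_le_norm (ξ c - ξ pt)) hcpt]
  have hre : |(ξ c').re - x| ≤ G + 1 := by
    have h1 : ‖((c' : ℂ) - c) * star u‖ ≤ G := by rw [norm_mul, hus, mul_one]; exact hc2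
    rw [hsplit, Complex.add_re, Complex.add_re, Complex.ofReal_re, add_sub_cancel_right]
    refine le_trans (abs_add_le _ _) (add_le_add ?_ ?_)
    · exact le_trans (Complex.abs_re_le_norm _) h1
    · exact le_trans (Complex.abs_re_le_norm _) hcpt
  obtain ⟨i, hi, hi'⟩ := exists_near hD' ht (hx _ (le_trans hre (by simp only [Lt]; linarith)))
  have hclose : ((z i).re - c'.re, (z i).im - c'.im) ∈ offsets u A B := by
    have hv : ((((z i).re - c'.re : ℤ) : ℂ) + ((z i).im - c'.im : ℤ) * Complex.I) * star u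
        = ξ (z i) - ξ c' := by
      simp only [ξ, GaussianInt.toComplex_def]
      push_cast
      ring
    refine mem_offsets hu ?_ ?_ <;> rw [hv]
    · rw [Complex.sub_re]
      exact le_trans hi' (Nat.le_ceil _)
    · rw [Complex.sub_im]
      refine le_trans (abs_sub _ _) ?_
      have := hh i hi
      have := Nat.le_ceil W'
      simp only [B]
      push_cast
      linarith
  have hsmall : |t i - τ| ≤ P := by
    refine le_trans ?_ (hP' ▸ hc3 (z i) (hz i hi).1 hclose)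
    have := Complex.abs_re_le_norm (ξ (z i) - ξ 0)
    rw [hiso, sub_zero, Complex.sub_re] at this
    exact this
  have := abs_sub_le x (ξ c').re (t i)
  have := abs_sub_le x (t i) τ
  rw [abs_sub_comm] at hi' hre
  simp only [Lt] at hxτ
  linarith

/-- The length bound is at most `exp (C (W + 1) ^ 3 log (W + 2))`. -/
theorem strip_bound_exp (D : ℝ) : ∃ C : ℝ, 0 ≤ C ∧ ∀ W : ℝ, 0 ≤ W →
    stripLength D W ≤ Real.exp (C * (W + 1) ^ 3 * Real.log (W + 2)) := by
  let D' := max D 0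
  have hD' : 0 ≤ D' := le_max_right _ _
  let c0 : ℝ := 25 * (2 * D' + 3) * 7
  let a1 : ℝ := 900 + 4 * D'
  have hl2 : 0 < Real.log 2 := Real.log_pos (by norm_num)
  have hc0 : 0 ≤ c0 := by positivity
  have ha1 : 1 ≤ a1 := by simp only [a1]; linarith
  have hla : 0 ≤ Real.log a1 := Real.log_nonneg ha1
  have hlc : 0 ≤ Real.log (2 * c0 + 1) := Real.log_nonneg (by linarith)
  refine ⟨Real.log a1 / Real.log 2 + 1 + 448 * c0 ^ 3 *
    (Real.log (2 * c0 + 1) / Real.log 2 + 1), by positivity, fun W hW => ?_⟩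
  set m := offsetCount D W
  set l := Real.log (W + 2) with hl
  have hl1 : Real.log 2 ≤ l := Real.log_le_log (by norm_num) (by linarith)
  have hm : (m : ℝ) ≤ c0 * (W + 1) := by
    have h1 : (⌈D'⌉₊ : ℝ) ≤ D' + 1 := (Nat.ceil_lt_add_one hD').le
    have h2 : (⌈max W 0⌉₊ : ℝ) ≤ W + 1 := by
      rw [max_eq_left hW]; exact (Nat.ceil_lt_add_one hW).le
    simp only [m, offsetCount]
    push_cast
    calc (25 : ℝ) * ((2 * ⌈D'⌉₊ + 1) * (2 * (⌈max W 0⌉₊ + 2) + 1))
        ≤ 25 * ((2 * D' + 3) * (7 * (W + 1))) :=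
          mul_le_mul_of_nonneg_left (mul_le_mul (by linarith) (by linarith) (by positivity)
            (by positivity)) (by norm_num)
      _ = c0 * (W + 1) := by simp only [c0]; ring
  set Bd : ℝ := (blockBound m : ℝ) with hBd
  have hBde : Bd = ((2 * m + 1 : ℕ) : ℝ) ^ (112 * m ^ 3) := by
    rw [hBd, blockBound, Nat.cast_pow]
  have hB1 : 1 ≤ Bd := hBde ▸ one_le_pow₀ (by simp)
  have h1 : stripLength D W ≤ a1 * (W + 2) * Bd ^ 4 := by
    have hB4 : Bd ≤ Bd ^ 4 := le_self_pow₀ hB1 (by norm_num)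
    have hB41 : 1 ≤ Bd ^ 4 := one_le_pow₀ hB1
    simp only [stripLength, max_eq_left hW]
    calc 4 * (200 * Bd ^ 4 + Bd + D' + 3) + 2 * W
        ≤ (a1 + a1 * W) * Bd ^ 4 := by simp only [a1]; nlinarith
      _ ≤ a1 * (W + 2) * Bd ^ 4 := by
          refine mul_le_mul_of_nonneg_right ?_ (by positivity)
          nlinarith
  refine h1.trans ((Real.log_le_iff_le_exp (by positivity)).1 ?_)
  rw [Real.log_mul (by positivity) (by positivity), Real.log_mul (by positivity) (by positivity),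
    hBde, Real.log_pow, Real.log_pow]
  push_cast
  rw [← hl]
  have e1 : Real.log a1 ≤ Real.log a1 / Real.log 2 * l := by
    calc Real.log a1 = Real.log a1 / Real.log 2 * Real.log 2 := (div_mul_cancel₀ _ hl2.ne').symm
      _ ≤ _ := by gcongr
  have e2 : Real.log (2 * (m : ℝ) + 1) ≤ (Real.log (2 * c0 + 1) / Real.log 2 + 1) * l := by
    have h2 : Real.log (2 * (m : ℝ) + 1) ≤ Real.log (2 * c0 + 1) + l := by
      rw [hl, ← Real.log_mul (by positivity) (by positivity)]
      exact Real.log_le_log (by positivity) (by nlinarith)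
    have h3 : Real.log (2 * c0 + 1) ≤ Real.log (2 * c0 + 1) / Real.log 2 * l := by
      calc Real.log (2 * c0 + 1)
          = Real.log (2 * c0 + 1) / Real.log 2 * Real.log 2 := (div_mul_cancel₀ _ hl2.ne').symm
        _ ≤ _ := by gcongr
    linarith
  have e3 : (m : ℝ) ^ 3 ≤ c0 ^ 3 * (W + 1) ^ 3 := by rw [← mul_pow]; gcongr
  have hW3 : 1 ≤ (W + 1) ^ 3 := one_le_pow₀ (by linarith)
  have hl0 : 0 ≤ l := by linarith
  have hlm : 0 ≤ Real.log (2 * (m : ℝ) + 1) :=
    Real.log_nonneg (by have := (Nat.cast_nonneg m : (0:ℝ) ≤ m); linarith)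
  calc Real.log a1 + l + 4 * (112 * (m : ℝ) ^ 3 * Real.log (2 * (m : ℝ) + 1))
      ≤ (Real.log a1 / Real.log 2 + 1) * l * (W + 1) ^ 3 + 448 * (c0 ^ 3 * (W + 1) ^ 3) *
        ((Real.log (2 * c0 + 1) / Real.log 2 + 1) * l) := by
        refine add_le_add ?_ ?_
        · calc Real.log a1 + l ≤ (Real.log a1 / Real.log 2 + 1) * l := by linarith
            _ ≤ _ := le_mul_of_one_le_right (by positivity) hW3
        · rw [← mul_assoc, ← mul_assoc, show (4 : ℝ) * 112 = 448 by norm_num]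
          gcongr
    _ = _ := by ring

/-- No infinite walk of distinct Gaussian primes with bounded steps stays within distance
`c (log (2 + |z|)) ^ (1/4)` of a line. -/
theorem no_path_near_line (D c : ℝ) (q u : ℂ) (hu : ‖u‖ = 1) :
    ¬ ∃ z : ℕ → GaussianInt, Function.Injective z ∧ ∀ n, Prime (z n) ∧
      |(((z n : ℂ) - q) * star u).im| ≤ c * Real.log (2 + ‖(z n : ℂ)‖) ^ (1 / 4 : ℝ) ∧
      ‖(z (n + 1) : ℂ) - z n‖ ≤ D := by
  rintro ⟨z, hinj, hz⟩
  have hD : 0 ≤ D := le_trans (norm_nonneg _) (hz 0).2.2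
  obtain ⟨C, hC, hexp⟩ := strip_bound_exp D
  obtain ⟨x0, hx0⟩ : ∃ x0, x0 = 1 + (4 * C * (|c| + 2) ^ 4) ^ 2 := ⟨_, rfl⟩
  have hx01 : 1 ≤ x0 := by rw [hx0]; linarith [sq_nonneg (4 * C * (|c| + 2) ^ 4)]
  obtain ⟨R, hR⟩ : ∃ R, R = Real.exp (x0 ^ 4) + 2 * ‖(z 0 : ℂ)‖ + D + 9 := ⟨_, rfl⟩
  have hex : ∃ n, R < ‖(z n : ℂ)‖ := by
    by_contra hcon
    push Not at hcon
    exact (Set.infinite_range_of_injective hinj)
      ((finite_ball R).subset (by rintro _ ⟨n, rfl⟩; exact hcon n))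
  classical
  set n := Nat.find hex
  have hn : R < ‖(z n : ℂ)‖ := Nat.find_spec hex
  have he0 := Real.exp_pos (x0 ^ 4)
  have hz0 := norm_nonneg (z 0 : ℂ)
  have hall : ∀ i ≤ n, ‖(z i : ℂ)‖ ≤ R + D := by
    intro i hi
    rcases Nat.eq_zero_or_pos i with rfl | hpos
    · linarith
    · have h1 : ‖(z (i - 1) : ℂ)‖ ≤ R := not_lt.1 (Nat.find_min hex (by omega))
      have h2 := (hz (i - 1)).2.2
      rw [show i - 1 + 1 = i by omega] at h2
      linarith [norm_le_norm_sub_add (z i : ℂ) (z (i - 1))]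
  set Y := 2 + R + D
  have hY : Real.exp (x0 ^ 4) ≤ Y := by simp only [Y]; linarith
  set x := Real.log Y ^ (1 / 4 : ℝ) with hx
  have hlY : x0 ^ 4 ≤ Real.log Y := (Real.le_log_iff_exp_le (by linarith)).2 hY
  have hlY0 : 0 ≤ Real.log Y := le_trans (by positivity) hlY
  have hxx : x0 ≤ x := by
    rw [hx, ← Real.pow_rpow_inv_natCast (by linarith : (0:ℝ) ≤ x0) (by norm_num : 4 ≠ 0)]
    norm_num
    exact Real.rpow_le_rpow (by positivity) hlY (by norm_num)
  have hx4 : x ^ 4 = Real.log Y := by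
    rw [hx, ← Real.rpow_natCast, ← Real.rpow_mul hlY0]
    norm_num
  have hx1 : 1 ≤ x := hx01.trans hxx
  have hwalk := strip_walk D (|c| * x) q u hu n z (fun i hi => ⟨(hz i).1, (hz i).2.1.trans ?_⟩)
    (fun i _ => (hz i).2.2)
  · have hW0 : 0 ≤ |c| * x := by positivity
    have h1 := hwalk.trans (hexp _ hW0)
    have h2 : C * (|c| * x + 1) ^ 3 * Real.log (|c| * x + 2) ≤ x ^ 4 / 2 := by
      obtain ⟨r, hr0, hr⟩ : ∃ r, 0 ≤ r ∧ r ^ 2 = x := ⟨√x, Real.sqrt_nonneg _,
        Real.sq_sqrt (by linarith)⟩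
      have hr1 : 4 * C * (|c| + 2) ^ 4 ≤ r := by
        nlinarith [show 0 ≤ 4 * C * (|c| + 2) ^ 4 by positivity]
      have h3 : |c| * x + 1 ≤ (|c| + 2) * x := by linarith
      have h4 : Real.log (|c| * x + 2) ≤ 2 * ((|c| + 2) * r) := by
        have h5 : |c| * x + 2 ≤ ((|c| + 2) * r) ^ 2 := by
          rw [mul_pow, hr]
          nlinarith [abs_nonneg c, mul_nonneg (abs_nonneg c) (by linarith : (0:ℝ) ≤ x)]
        calc Real.log (|c| * x + 2) ≤ Real.log (((|c| + 2) * r) ^ 2) :=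
              Real.log_le_log (by positivity) h5
          _ = 2 * Real.log ((|c| + 2) * r) := by rw [Real.log_pow]; norm_num
          _ ≤ 2 * ((|c| + 2) * r) := by
              gcongr
              exact Real.log_le_self (by positivity)
      have hlog : 0 ≤ Real.log (|c| * x + 2) := Real.log_nonneg (by linarith)
      calc C * (|c| * x + 1) ^ 3 * Real.log (|c| * x + 2)
          ≤ C * ((|c| + 2) * x) ^ 3 * (2 * ((|c| + 2) * r)) := by gcongr
        _ = (4 * C * (|c| + 2) ^ 4) * r * x ^ 3 / 2 := by ring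
        _ ≤ r * r * x ^ 3 / 2 := by gcongr
        _ = x ^ 4 / 2 := by rw [← sq, hr]; ring
    have h3 : Real.exp (x ^ 4 / 2) = √Y := by
      rw [hx4, Real.exp_half, Real.exp_log (by linarith)]
    have h4 := (h1.trans (Real.exp_le_exp.2 h2)).trans_eq h3
    have h5 := norm_le_norm_sub_add (z n : ℂ) (z 0)
    have h6 : √Y * √Y = Y := Real.mul_self_sqrt (by linarith)
    nlinarith [Real.sqrt_nonneg Y]
  · calc c * Real.log (2 + ‖(z i : ℂ)‖) ^ (1 / 4 : ℝ)
        ≤ |c| * Real.log (2 + ‖(z i : ℂ)‖) ^ (1 / 4 : ℝ) :=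
          mul_le_mul_of_nonneg_right (le_abs_self c)
            (Real.rpow_nonneg (Real.log_nonneg (by linarith [norm_nonneg (z i : ℂ)])) _)
      _ ≤ |c| * x := by
          refine mul_le_mul_of_nonneg_left (Real.rpow_le_rpow (Real.log_nonneg
            (by linarith [norm_nonneg (z i : ℂ)])) ?_ (by norm_num)) (abs_nonneg c)
          exact Real.log_le_log (by positivity) (by simp only [Y]; linarith [hall i hi])

/-- No infinite walk of distinct Gaussian primes stays in an asymptotically flat set. -/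
theorem no_path_in_flat_set (D W : ℝ) (S : Set ℂ)
    (hS : ∀ L : ℝ, ∃ R : ℝ, ∀ c : ℂ, R ≤ ‖c‖ → ∃ q u : ℂ, ‖u‖ = 1 ∧
      ∀ w ∈ S, ‖w - c‖ ≤ L → |((w - q) * star u).im| ≤ W) :
    ¬ ∃ z : ℕ → GaussianInt, Function.Injective z ∧
      ∀ n, Prime (z n) ∧ (z n : ℂ) ∈ S ∧ ‖(z (n + 1) : ℂ) - z n‖ ≤ D := by
  rintro ⟨z, hinj, hz⟩
  obtain ⟨L, hL, hbound⟩ : ∃ L, 0 ≤ L ∧ ∀ (q u : ℂ), ‖u‖ = 1 → ∀ (m : ℕ) (z : ℕ → GaussianInt),
      (∀ i ≤ m, Prime (z i) ∧ |(((z i : ℂ) - q) * star u).im| ≤ W) →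
      (∀ i < m, ‖(z (i + 1) : ℂ) - z i‖ ≤ D) → ‖(z m : ℂ) - z 0‖ ≤ L :=
    ⟨_, stripLength_nonneg D W, strip_walk D W⟩
  obtain ⟨R, hR⟩ := hS (L + max D 0)
  have hball := finite_ball
  obtain ⟨N, hN⟩ : ∃ N, R ≤ ‖(z N : ℂ)‖ := by
    by_contra hcon
    push Not at hcon
    exact (Set.infinite_range_of_injective hinj)
      ((hball R).subset (by rintro _ ⟨n, rfl⟩; exact (hcon n).le))
  obtain ⟨q, u, hu, hwin⟩ := hR _ hN
  have key : ∀ k, ∀ i ≤ k, ‖(z (N + i) : ℂ) - z N‖ ≤ L := by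
    intro k
    induction k with
    | zero => intro i hi; rw [Nat.le_zero.1 hi]; simpa using hL
    | succ k ih =>
      intro i hi
      rcases Nat.lt_or_eq_of_le hi with h | rfl
      · exact ih i (by omega)
      · refine hbound q u hu (k + 1) (fun j => z (N + j)) (fun j hj => ?_)
          (fun j _ => (hz (N + j)).2.2)
        refine ⟨(hz _).1, hwin _ (hz _).2.1 ?_⟩
        rcases Nat.lt_or_eq_of_le hj with h | rfl
        · linarith [ih j (by omega), le_max_right D 0]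
        · have := norm_sub_le_norm_sub_add_norm_sub (z (N + k + 1) : ℂ) (z (N + k)) (z N)
          have := (hz (N + k)).2.2
          have := ih k le_rfl
          have : N + (k + 1) = N + k + 1 := rfl
          rw [this]
          linarith [le_max_left D 0]
  have hinf : (Set.range fun i => z (N + i)).Infinite :=
    Set.infinite_range_of_injective fun i j h => by simpa using hinj h
  refine hinf ((hball (L + ‖(z N : ℂ)‖)).subset ?_)
  rintro _ ⟨i, rfl⟩
  have := norm_le_norm_sub_add (z (N + i) : ℂ) (z N)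
  have := key i i le_rfl
  simp only [Set.mem_ofPred_eq]
  linarith

end Vale.Agent.P015

namespace Vale.Agent.P015

/-- Bounded neighbourhoods of the parabola are asymptotically flat. -/
theorem no_path_near_parabola (D W : ℝ) :
    ¬ ∃ z : ℕ → GaussianInt, Function.Injective z ∧ ∀ n, Prime (z n) ∧
      (∃ t : ℝ, ‖(z n : ℂ) - ((t : ℂ) + (t : ℂ) ^ 2 * Complex.I)‖ ≤ W) ∧
      ‖(z (n + 1) : ℂ) - z n‖ ≤ D := by
  by_cases hW : W < 0
  · rintro ⟨z, -, hz⟩
    obtain ⟨t, ht⟩ := (hz 0).2.1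
    linarith [norm_nonneg ((z 0 : ℂ) - ((t : ℂ) + (t : ℂ) ^ 2 * Complex.I))]
  push Not at hW
  let γ : ℝ → ℂ := fun t => (t : ℂ) + (t : ℂ) ^ 2 * Complex.I
  refine no_path_in_flat_set D (W + 1) {w | ∃ t : ℝ, ‖w - γ t‖ ≤ W} fun L => ?_
  obtain ⟨A, hA⟩ : ∃ A, A = 2 * (|L| + W) + 1 := ⟨_, rfl⟩
  have hA1 : 1 ≤ A := by rw [hA]; linarith [abs_nonneg L]
  refine ⟨|L| + W + 1 + (A + A ^ 2), fun c hc => ?_⟩
  by_cases hne : ∃ w, (∃ t : ℝ, ‖w - γ t‖ ≤ W) ∧ ‖w - c‖ ≤ L
  · obtain ⟨w₀, ⟨t₀, ht₀⟩, hw₀⟩ := hne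
    have hL : 0 ≤ L := le_trans (norm_nonneg _) hw₀
    have ht0big : A < |t₀| := by
      by_contra hcon
      push Not at hcon
      have h1 : ‖γ t₀‖ ≤ A + A ^ 2 := by
        refine le_trans (norm_add_le _ _) (add_le_add ?_ ?_)
        · simpa [Complex.norm_real] using hcon
        · simp only [norm_mul, norm_pow, Complex.norm_real, Complex.norm_I, mul_one,
            Real.norm_eq_abs]
          gcongr
      have := norm_le_norm_sub_add c (γ t₀)
      have := norm_sub_le_norm_sub_add_norm_sub c w₀ (γ t₀)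
      rw [norm_sub_rev c w₀] at this
      linarith [abs_of_nonneg hL]
    refine ⟨(t₀ : ℂ), Complex.I, Complex.norm_I, fun w ⟨t, ht⟩ hw => ?_⟩
    have hd : ‖γ t - γ t₀‖ ≤ A - 1 := by
      have := norm_sub_le_norm_sub_add_norm_sub (γ t) w (γ t₀)
      have := norm_sub_le_norm_sub_add_norm_sub w c w₀
      have := norm_sub_le_norm_sub_add_norm_sub w w₀ (γ t₀)
      rw [norm_sub_rev (γ t) w] at *
      rw [norm_sub_rev c w₀] at *
      linarith [abs_of_nonneg hL]
    have hre : |t - t₀| ≤ A - 1 := by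
      refine le_trans ?_ hd
      have := Complex.abs_re_le_norm (γ t - γ t₀)
      simpa [γ, pow_two] using this
    have him : |t + t₀| * |t - t₀| ≤ A - 1 := by
      refine le_trans ?_ hd
      rw [← abs_mul]
      refine le_trans (le_of_eq ?_) (Complex.abs_im_le_norm _)
      congr 1
      simp [γ, pow_two]
      ring
    have hclose : |t - t₀| ≤ 1 := by
      by_contra hcon
      push Not at hcon
      have : A - 1 < |t + t₀| := by
        have h2 : 2 * |t₀| ≤ |t + t₀| + |t - t₀| := by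
          rw [show 2 * |t₀| = |(t + t₀) - (t - t₀)| by
            rw [← abs_two, ← abs_mul]; congr 1; ring]
          exact abs_sub _ _
        linarith
      nlinarith [abs_nonneg (t + t₀)]
    have hw' : |w.re - t| ≤ W := by
      refine le_trans ?_ ht
      have := Complex.abs_re_le_norm (w - γ t)
      simpa [γ, pow_two] using this
    have : ((w - (t₀ : ℂ)) * star Complex.I).im = -((w.re - t) + (t - t₀)) := by simp
    rw [this, abs_neg]
    exact le_trans (abs_add_le _ _) (by linarith)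
  · push Not at hne
    exact ⟨c, 1, norm_one, fun w hw hwc => absurd hwc (not_le.2 (hne w hw))⟩

end Vale.Agent.P015
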